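import Vale.Agent.P237.Kappa

/-!
P237: the profile lemma needed for the step from dimension `m + 1` to dimension `m + 2`.
-/

open MeasureTheory Set Real

namespace Vale.Agent.P237.Higher

open Statement

/-- The value of `(∫ f^m)^(m+1) / (∫ f^(m+1))^m` at the semicircle on `[-1,1]`. -/
noncomputable def profConst (m : ℕ) : ℝ :=
  ballVol (m + 1) ^ (2 * m + 1) / (ballVol m ^ (m + 1) * ballVol (m + 2) ^ m)

/-- The one-dimensional lemma for dimension `m + 2`. -/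
def ProfileN (m : ℕ) : Prop :=
  ∀ f : ℝ → ℝ, ConcaveOn ℝ (Icc (-1) 1) f → (∀ t, f (-t) = f t) →
    (∀ t ∈ Icc (-1 : ℝ) 1, √(1 - t ^ 2) ≤ f t) →
    ∫ t in Icc (-1 : ℝ) 1, f t ^ (m + 3) ≤
      (m + 3 : ℝ) * ∫ t in Icc (-1 : ℝ) 1, t ^ 2 * f t ^ (m + 1) →
    profConst m * (∫ t in Icc (-1 : ℝ) 1, f t ^ (m + 1)) ^ m ≤
        (∫ t in Icc (-1 : ℝ) 1, f t ^ m) ^ (m + 1) ∧
      ((∫ t in Icc (-1 : ℝ) 1, f t ^ m) ^ (m + 1) =
          profConst m * (∫ t in Icc (-1 : ℝ) 1, f t ^ (m + 1)) ^ m →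
        ∀ t ∈ Ioo (-1 : ℝ) 1, f t ≤ √(1 - t ^ 2))

lemma profConst_values :
    profConst 1 = 3 * π ^ 2 / 16 ∧ profConst 2 = 4096 / (243 * π ^ 2) ∧
      profConst 3 = 273375 * π ^ 4 / 16777216 ∧ profConst 4 = 2 ^ 36 / (3 ^ 5 * 5 ^ 9 * π ^ 4) := by
  have e1 := ballVol_one
  have e2 := ballVol_two
  have e3 : ballVol 3 = 4 * π / 3 := by rw [ballVol_rec 0, e1]; ring
  have e4 : ballVol 4 = π ^ 2 / 2 := by rw [ballVol_rec 1, e2]; ring
  have e5 : ballVol 5 = 8 * π ^ 2 / 15 := by rw [ballVol_rec 2, e3]; ring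
  have e6 : ballVol 6 = π ^ 3 / 6 := by rw [ballVol_rec 3, e4]; ring
  simp only [profConst, show 1 + 1 = 2 from rfl, show 1 + 2 = 3 from rfl,     show 2 + 2 = 4 from rfl, show 3 + 2 = 5 from rfl, show 4 + 2 = 6 from rfl, e1, e2, e3, e4, e5, e6]
  refine ⟨?_, ?_, ?_, ?_⟩ <;> field_simp <;> ring

lemma pettyConst_step {m : ℕ} (hm : 1 ≤ m) :
    pettyConst (m + 1) * profConst m = pettyConst (m + 2) := by
  obtain ⟨k, rfl⟩ : ∃ k, m = k + 1 := ⟨m - 1, by omega⟩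
  have h1 := ballVol_pos k
  have h2 := ballVol_pos (k + 1)
  have h3 := ballVol_pos (k + 2)
  simp only [pettyConst, profConst, Nat.add_sub_cancel, show k + 1 + 1 - 2 = k by omega,
    show k + 1 + 2 - 2 = k + 1 by omega, show k + 1 + 2 - 1 = k + 1 + 1 by omega]
  field_simp
  ring

end Vale.Agent.P237.Higher
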